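import Crest.Agent.R130.CdfMap
import Crest.Agent.R130.TranspA
import Crest.Agent.R130.Half
import Crest.Agent.R130.Perm
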